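import Vale.Agent.P181.H403.LB6s

set_option autoImplicit false

/-!
# P181, PL: the lower bound LB6 with explicit numbers

`T` is at least `10 ^ 9 * (1 + log a) ^ 6`; the number of stars is `2 * ⌈1 + log a⌉`.
-/

open Finset

namespace Vale.Agent.P181.PL2

open Vale.Agent.P181.T6 Vale.Agent.P181.T4 Vale.Agent.P181.H280
open Vale.Agent.P181.H463 (exists_class four_mul_le sum_ex ex_of_ge gt)
open Vale.Agent.P181.H162 (FC)

/-- The choice of the length class. -/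
theorem choose_x {a k b n : ℕ} {lam : Fin n → ℕ} {S : ℝ} (ha : 1 ≤ a) (hna : n ≤ a)
    (hlam : Antitone lam) (hsum : ∑ i, lam i = k * b) (hkb : 0 < k * b)
    (h0 : S * (ex lam 0 : ℝ) ≤ (k : ℝ) * b) : ∃ l, 1 ≤ l ∧ l ≤ n ∧
      ((k : ℝ) * b) ≤ (1 + Real.log a) * (l * ex lam (l - 1)) ∧
      S ≤ (1 + Real.log a) * l ∧ 4 * ex lam (4 * l - 1) ≤ ex lam (l - 1) ∧
      ∀ R ≤ l, ∑ r ∈ range R, ex lam r + (l - R) * ex lam (l - 1) ≤ k * b := by
  have ha' : (1 : ℝ) ≤ a := by exact_mod_cast ha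
  have hkb' : (0 : ℝ) < (k : ℝ) * b := by exact_mod_cast hkb
  have hn : 0 < n := by
    rcases Nat.eq_zero_or_pos n with h | h
    · subst h
      rw [Fin.sum_univ_zero] at hsum
      omega
    · exact h
  obtain ⟨i, hmax, hi⟩ := exists_class hn lam
  have hex : ex lam ((i : ℕ) + 1 - 1) = lam i := by
    rw [Nat.add_sub_cancel]
    exact ex_of_lt lam i.2
  have hlog : Real.log n ≤ Real.log a :=
    Real.log_le_log (by exact_mod_cast hn) (by exact_mod_cast hna)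
  have hL : (0 : ℝ) ≤ 1 + Real.log a := by
    have := Real.log_nonneg ha'
    linarith
  have h1 : ((k : ℝ) * b) ≤ (1 + Real.log a) * ((((i : ℕ) + 1 : ℕ) : ℝ) * lam i) := by
    rw [hsum] at hi
    push_cast at hi ⊢
    calc (k : ℝ) * b ≤ (((i : ℕ) : ℝ) + 1) * lam i * (1 + Real.log n) := hi
      _ ≤ (((i : ℕ) : ℝ) + 1) * lam i * (1 + Real.log a) := by gcongr
      _ = _ := by ring
  refine ⟨(i : ℕ) + 1, Nat.succ_pos _, i.2, ?_, ?_, ?_, ?_⟩
  · rw [hex]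
    exact h1
  · have h2 : (lam i : ℝ) ≤ ex lam 0 := by
      rw [ex_of_lt lam hn]
      exact_mod_cast hlam (show (⟨0, hn⟩ : Fin n) ≤ i from Nat.zero_le _)
    have h3 : ((k : ℝ) * b) ≤ ((1 + Real.log a) * (((i : ℕ) + 1 : ℕ) : ℝ)) * ex lam 0 := by
      refine le_trans h1 ?_
      rw [← mul_assoc]
      apply mul_le_mul_of_nonneg_left h2
      positivity
    have h4 : (0 : ℝ) < ex lam 0 := by
      by_contra hcon
      have h5 : (ex lam 0 : ℝ) = 0 := le_antisymm (not_lt.mp hcon) (Nat.cast_nonneg _)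
      rw [h5, mul_zero] at h3
      linarith
    exact le_of_mul_le_mul_right (h0.trans h3) h4
  · rw [hex]
    by_cases h : 4 * ((i : ℕ) + 1) - 1 < n
    · rw [ex_of_lt lam h]
      exact four_mul_le i hmax ⟨_, h⟩ (by
        show 4 * ((i : ℕ) + 1) ≤ 4 * ((i : ℕ) + 1) - 1 + 1
        omega)
    · rw [ex_of_ge lam (not_lt.mp h)]
      exact Nat.zero_le _
  · intro R hR
    rw [hex]
    have h2 : ((i : ℕ) + 1 - R) * lam i ≤ ∑ r ∈ Ico R ((i : ℕ) + 1), ex lam r := by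
      rw [← Nat.card_Ico, ← smul_eq_mul]
      apply card_nsmul_le_sum
      intro r hr
      rw [mem_Ico] at hr
      have hr' : r < n := lt_of_lt_of_le hr.2 i.2
      rw [ex_of_lt lam hr']
      exact hlam (show (⟨r, hr'⟩ : Fin n) ≤ i from Nat.lt_succ_iff.mp hr.2)
    calc ∑ r ∈ range R, ex lam r + ((i : ℕ) + 1 - R) * lam i
        ≤ ∑ r ∈ range R, ex lam r + ∑ r ∈ Ico R ((i : ℕ) + 1), ex lam r :=
          Nat.add_le_add_left h2 _
      _ = ∑ r ∈ range ((i : ℕ) + 1), ex lam r := by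
          rw [range_eq_Ico, range_eq_Ico, sum_Ico_consecutive _ (Nat.zero_le R) hR]
      _ ≤ ∑ r ∈ range n, ex lam r :=
          sum_le_sum_of_subset (range_subset_range.mpr i.2)
      _ = k * b := by rw [sum_ex, hsum]

/-- The family from a design and the numerical inequality. -/
theorem lb_onex {a k b n : ℕ} {lam : Fin n → ℕ} {R N cells : ℕ}
    {eta : Fin (n - R) → ℕ} (ha : 1 ≤ a) (hlam : Antitone lam) (hsum : ∑ i, lam i = k * b)
    (hRn : R ≤ n) (hN1 : 1 ≤ N) (hdes : DesignFor k b n R N cells lam eta)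
    (hN : Antitone eta → (∀ i, eta i ≤ low R lam i) →
      ∑ i, low R lam i ≤ ∑ i, eta i + cells →
      ((ex lam 0 : ℝ) + 1) ^ (a * R) * (a : ℝ) ^ cells *
        (((∑ i, eta i) + N - 1).choose (N - 1) : ℝ) * (gt (n - R) a eta : ℝ) *
        Real.exp (2 * b) ≤ (gt (n - R) N eta : ℝ)) :
    ∃ P : ℕ, Family k b n lam P ∧ (gt n a lam : ℝ) * Real.exp (2 * b) ≤ P := by
  obtain ⟨c1, c2, c3, c4⟩ := Vale.Agent.P181.H539.cost_stmt k b n R N cells a lam eta hRn ha hlam hdes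
  obtain ⟨P, hP, hgt⟩ := Vale.Agent.P181.H539.fam_stmt1 k b n R N cells lam eta hN1 hRn hlam hsum hdes
  refine ⟨P, hP, ?_⟩
  have hnum := hN c1 c4 c3
  have hcut := Vale.Agent.P181.H539.cut_stmt a n R lam hRn hlam
  set Cc : ℕ := ((∑ i, eta i) + N - 1).choose (N - 1) with hCc
  have hCpos : 0 < Cc := by
    rw [hCc]
    apply Nat.choose_pos
    omega
  have h5 : gt n a lam ≤ (ex lam 0 + 1) ^ (a * R) * (a ^ cells * gt (n - R) a eta) :=
    hcut.trans (Nat.mul_le_mul_left _ c2)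
  have h6 : (gt n a lam : ℝ) ≤ ((ex lam 0 : ℝ) + 1) ^ (a * R) *
      ((a : ℝ) ^ cells * gt (n - R) a eta) := by exact_mod_cast h5
  have h7 : (gt (n - R) N eta : ℝ) ≤ (Cc : ℝ) * P := by exact_mod_cast hgt
  have hC0 : (0 : ℝ) < Cc := by exact_mod_cast hCpos
  have h8 : (Cc : ℝ) * ((gt n a lam : ℝ) * Real.exp (2 * b)) ≤ (Cc : ℝ) * P := by
    calc (Cc : ℝ) * ((gt n a lam : ℝ) * Real.exp (2 * b))
        ≤ (Cc : ℝ) * ((((ex lam 0 : ℝ) + 1) ^ (a * R) *
            ((a : ℝ) ^ cells * gt (n - R) a eta)) * Real.exp (2 * b)) := by gcongr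
      _ = ((ex lam 0 : ℝ) + 1) ^ (a * R) * (a : ℝ) ^ cells * (Cc : ℝ) *
            (gt (n - R) a eta : ℝ) * Real.exp (2 * b) := by ring
      _ ≤ (gt (n - R) N eta : ℝ) := hnum
      _ ≤ _ := h7
  exact le_of_mul_le_mul_left h8 hC0

/-- **The explicit lower bound.** -/
theorem lbx {a k b n : ℕ} {lam : Fin n → ℕ} {T : ℝ} (hlog : 2 ≤ Real.log a)
    (hT : 10 ^ 9 * (1 + Real.log a) ^ 6 ≤ T) (hna : n ≤ a) (hka : k ≤ a) (hb2 : b ≤ a ^ 2)
    (hlam : Antitone lam) (hsum : ∑ i, lam i = k * b) (hk : T ^ 6 ≤ k)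
    (hk2 : (a : ℝ) * T ^ 12 ≤ (k : ℝ) ^ 2) (hb : (a : ℝ) * T ^ 6 ≤ b)
    (h0 : T ^ 7 * (ex lam 0 : ℝ) ≤ (k : ℝ) * b) :
    ∃ P : ℕ, Family k b n lam P ∧ (gt n a lam : ℝ) * Real.exp (2 * b) ≤ P := by
  -- the size of `a`
  have ha0' : a ≠ 0 := by
    rintro rfl
    rw [Nat.cast_zero, Real.log_zero] at hlog
    linarith
  have haN : 1 ≤ a := Nat.one_le_iff_ne_zero.2 ha0'
  have ha1 : (1 : ℝ) ≤ a := by exact_mod_cast haN
  have ha0 : (0 : ℝ) < a := by linarith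
  have hexpa : Real.exp (Real.log a) = a := Real.exp_log ha0
  have ha3 : 3 ≤ a := by
    have h1 : Real.log a + 1 ≤ a := by
      rw [← hexpa]
      simpa using Real.add_one_le_exp (Real.log a)
    have h2 : (3 : ℝ) ≤ a := by linarith
    exact_mod_cast h2
  obtain ⟨Lg, hLg⟩ : ∃ z : ℝ, z = 1 + Real.log a := ⟨_, rfl⟩
  rw [← hLg] at hT
  have hLg3 : 3 ≤ Lg := by rw [hLg]; linarith
  have hLg0 : 0 < Lg := by linarith
  have hLg6 : Lg ≤ Lg ^ 6 := by
    calc Lg = Lg ^ 1 := (pow_one _).symm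
      _ ≤ Lg ^ 6 := pow_le_pow_right₀ (by linarith) (by norm_num)
  have hTL : 10 ^ 9 * Lg ≤ T := le_trans (by linarith) hT
  have hT9 : 3 * 10 ^ 9 ≤ T := by linarith
  have hT0 : 0 < T := by linarith
  have hT1 : 1 ≤ T := by linarith
  -- the number of stars
  obtain ⟨m0, hm0⟩ : ∃ z : ℕ, z = ⌈Lg⌉₊ := ⟨_, rfl⟩
  have hm1 : Lg ≤ m0 := by rw [hm0]; exact Nat.le_ceil _
  have hm2 : (m0 : ℝ) ≤ Lg + 1 := by
    rw [hm0]
    exact (Nat.ceil_lt_add_one hLg0.le).le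
  have hm3 : 1 ≤ m0 := by
    have : (1 : ℝ) ≤ m0 := by linarith
    exact_mod_cast this
  have hTm : 10 ^ 8 * (((2 * m0 : ℕ) : ℝ) * Lg ^ 5) ≤ T := by
    refine le_trans ?_ hT
    have h1 : ((2 * m0 : ℕ) : ℝ) ≤ 4 * Lg := by
      push_cast
      linarith
    calc 10 ^ 8 * (((2 * m0 : ℕ) : ℝ) * Lg ^ 5) ≤ 10 ^ 8 * ((4 * Lg) * Lg ^ 5) := by gcongr
      _ = (4 * 10 ^ 8) * Lg ^ 6 := by ring
      _ ≤ 10 ^ 9 * Lg ^ 6 := by
          apply mul_le_mul_of_nonneg_right (by norm_num) (by positivity)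
  have hub : b ≤ 4 * 3 ^ (2 * m0) := by
    have h1 : (a : ℝ) ≤ 3 ^ m0 := by
      calc (a : ℝ) = Real.exp (Real.log a) := hexpa.symm
        _ ≤ Real.exp (m0 * 1) := Real.exp_le_exp.2 (by
            rw [mul_one]
            linarith)
        _ = Real.exp 1 ^ m0 := Real.exp_nat_mul 1 m0
        _ ≤ 3 ^ m0 := by
            apply pow_le_pow_left₀ (Real.exp_pos 1).le
            have := Real.exp_one_lt_d9
            linarith
    have h2 : a ≤ 3 ^ m0 := by exact_mod_cast h1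
    calc b ≤ a ^ 2 := hb2
      _ ≤ (3 ^ m0) ^ 2 := Nat.pow_le_pow_left h2 2
      _ = 3 ^ (2 * m0) := by rw [← pow_mul, mul_comm]
      _ ≤ 4 * 3 ^ (2 * m0) := Nat.le_mul_of_pos_left _ (by norm_num)
  -- positivity
  have hkpos : (0 : ℝ) < k := lt_of_lt_of_le (by positivity) hk
  have hbpos : (0 : ℝ) < b := lt_of_lt_of_le (by positivity) hb
  have hkb : 0 < k * b := by
    have : (0 : ℝ) < ((k * b : ℕ) : ℝ) := by
      push_cast
      positivity
    exact_mod_cast this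
  obtain ⟨l, hl1, hln, hn1, hla, hoff, htop⟩ := choose_x haN hna hlam hsum hkb h0
  have hl0 : (0 : ℝ) ≤ l := Nat.cast_nonneg l
  have hlT6 : T ^ 6 ≤ l := by
    have h1 : T * T ^ 6 ≤ T * l := by
      calc T * T ^ 6 = T ^ 7 := by ring
        _ ≤ Lg * l := by rw [hLg]; exact hla
        _ ≤ T * l := mul_le_mul_of_nonneg_right (by linarith) hl0
    exact le_of_mul_le_mul_left h1 hT0
  have hT46 : T ^ 4 ≤ T ^ 6 := pow_le_pow_right₀ hT1 (by norm_num)
  have hT56 : T ^ 5 ≤ T ^ 6 := pow_le_pow_right₀ hT1 (by norm_num)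
  have hT412 : T ^ 4 ≤ T ^ 12 := pow_le_pow_right₀ hT1 (by norm_num)
  obtain ⟨Y, R, x, h, G, P, La, wm, Nl, hpar, hKR, hN1, hcells⟩ :=
    Vale.Agent.P181.H411.le_core2 a k b n (2 * m0) l 3 (ex lam) T Lg ⟨m0, by ring⟩ (by omega)
      (by linarith) hTm (hT46.trans hk) ((mul_le_mul_of_nonneg_left hT412 ha0.le).trans hk2) hka
      ((mul_le_mul_of_nonneg_left hT56 ha0.le).trans hb) (hT46.trans hlT6) hln (hln.trans hna)
      (by rw [hLg]; exact hn1) hoff htop (by norm_num) (by push_cast; linarith) hub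
  obtain ⟨N, eta, hNl, hNb, hdes⟩ := Vale.Agent.P181.H162.exists_design hlam hpar
  have hNr : (Nl : ℝ) ≤ N := by exact_mod_cast hNl
  have hbN : (b : ℝ) ≤ 2 * Lg * N := hN1.trans (mul_le_mul_of_nonneg_left hNr (by linarith))
  have hN0 : 1 ≤ N := by
    by_contra hcon
    have h1 : N = 0 := by omega
    rw [h1, Nat.cast_zero, mul_zero] at hbN
    linarith
  have hbN3 : (b : ℝ) ≤ 3 * Real.log a * N := by
    refine hbN.trans (mul_le_mul_of_nonneg_right ?_ (Nat.cast_nonneg _))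
    rw [hLg]
    linarith
  have hcells' : 100 * ((FC k b (2 * m0) 3 Y x G P * (4 * l) : ℕ) : ℝ) * Real.log a ^ 3 ≤
      (N : ℝ) * (min k l : ℕ) := by
    rw [Nat.cast_min]
    have h1 : Real.log a ^ 3 ≤ Lg ^ 3 := by
      apply pow_le_pow_left₀ (by linarith)
      rw [hLg]
      linarith
    have h2 : 0 ≤ 100 * ((FC k b (2 * m0) 3 Y x G P * (4 * l) : ℕ) : ℝ) := by positivity
    have h3 := mul_le_mul_of_nonneg_left h1 h2
    have h4 : (Nl : ℝ) * min (k : ℝ) (l : ℝ) ≤ N * min (k : ℝ) (l : ℝ) :=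
      mul_le_mul_of_nonneg_right hNr (le_min (Nat.cast_nonneg k) (Nat.cast_nonneg l))
    linarith
  have hRl : 8 * R ≤ l := hpar.hRl
  have hy3 : 3600 * Real.log a ^ 4 ≤ T ^ 3 := by
    have h1 : Real.log a ^ 4 ≤ Lg ^ 4 := by
      apply pow_le_pow_left₀ (by linarith)
      rw [hLg]
      linarith
    have h2 : Lg ^ 4 ≤ Lg ^ 6 := pow_le_pow_right₀ (by linarith) (by norm_num)
    have h3 : 0 ≤ Lg ^ 6 := by positivity
    have h4 : T ≤ T ^ 3 := by
      calc T = T ^ 1 := (pow_one _).symm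
        _ ≤ T ^ 3 := pow_le_pow_right₀ hT1 (by norm_num)
    linarith
  have hT36 : (T ^ 3) ^ 2 = T ^ 6 := by ring
  have hT312 : (T ^ 3) ^ 4 = T ^ 12 := by ring
  refine lb_onex haN hlam hsum (by omega) hN0 hdes (fun heta hle hsm => ?_)
  refine Vale.Agent.P181.H921.core6t (y := T ^ 3) ha3 hna hlog hy3 hka hb2 hlam hsum
    (by rw [hT312]; exact hk2) (by rw [hT36]; exact hk) hl1 hln ?_ ?_ hRl hKR hNb hbN3 ?_ hcells'
    heta hle hsm
  · rw [hT36]
    refine hlT6.trans ?_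
    have : 0 ≤ Real.log a * l := by positivity
    linarith
  · exact hn1
  · rw [hT36]
    exact hb.trans hbN3

end Vale.Agent.P181.PL2
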