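import Vale.Agent.P181.PL.Defs
import Vale.Agent.P181.PL2.LBX
import Vale.Agent.P181.H699.Use6

set_option autoImplicit false

/-!
# P181, PL: block P2
-/

namespace Vale.Agent.P181.PL2

open Vale.Agent.P181.T4 (HW ex low)
open Vale.Agent.P181.H280 (plethMult)
open Vale.Agent.P181.H463 (gt)

/-- **(P2)** -/
theorem lEx : PL.LEx := by
  intro a k b n lam T ha hT hna hka hk2 hb hb2 hlam hsum h0
  have ha1 : (1 : ℝ) ≤ a := by exact_mod_cast ha
  have ha0 : (0 : ℝ) < a := by linarith
  have hlog0 : 0 ≤ Real.log a := Real.log_nonneg ha1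
  have hL1 : 1 ≤ (1 + Real.log a) ^ 6 := one_le_pow₀ (by linarith)
  have hT10 : 10 ^ 10 ≤ T := le_trans (by linarith) hT
  have hT0 : 0 < T := lt_of_lt_of_le (by norm_num) hT10
  have hT1 : 1 ≤ T := le_trans (by norm_num) hT10
  have hkaR : (k : ℝ) ≤ a := by exact_mod_cast hka
  have hk0 : (0 : ℝ) ≤ k := Nat.cast_nonneg k
  have hT12 : T ^ 12 ≤ a := by
    have h1 : (a : ℝ) * T ^ 12 ≤ a * a := hk2.trans (by nlinarith)
    exact le_of_mul_le_mul_left h1 ha0
  have hlog : 2 ≤ Real.log a := by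
    have h1 : Real.exp 2 ≤ a := by
      have h2 : Real.exp 2 = Real.exp 1 * Real.exp 1 := by
        rw [← Real.exp_add]
        norm_num
      have h3 := Real.exp_one_lt_d9
      have h4 := Real.exp_pos 1
      have h5 : Real.exp 2 ≤ 9 := by
        rw [h2]
        nlinarith
      have h6 : T ≤ T ^ 12 := by
        calc T = T ^ 1 := (pow_one _).symm
          _ ≤ T ^ 12 := pow_le_pow_right₀ hT1 (by norm_num)
      linarith
    have := Real.log_le_log (Real.exp_pos 2) h1
    rwa [Real.log_exp] at this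
  have hk12 : T ^ 12 ≤ k := by
    have hkpos : (0 : ℝ) < k := by
      by_contra hcon
      have h1 : (k : ℝ) = 0 := le_antisymm (not_lt.mp hcon) hk0
      rw [h1] at hk2
      have h2 : 0 < (a : ℝ) * T ^ 12 := by positivity
      norm_num at hk2
      linarith
    have h1 : (k : ℝ) * T ^ 12 ≤ k * k := by
      calc (k : ℝ) * T ^ 12 ≤ a * T ^ 12 := mul_le_mul_of_nonneg_right hkaR (by positivity)
        _ ≤ (k : ℝ) ^ 2 := hk2
        _ = k * k := sq _
    exact le_of_mul_le_mul_left h1 hkpos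
  obtain ⟨P, hP1, hP2⟩ := lbx (T := T) hlog
    (le_trans (mul_le_mul_of_nonneg_right (by norm_num) (by positivity)) hT) hna hka hb2 hlam hsum
    ((pow_le_pow_right₀ hT1 (by norm_num)).trans hk12) hk2 hb h0
  refine hP2.trans ?_
  exact_mod_cast Vale.Agent.P181.H699.use6 k b n P lam hP1

end Vale.Agent.P181.PL2
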